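import Vale.Agent.P089G44.Fl

/-! P089: the character of the unitization, and the algebra of the flattened matrices. -/

set_option linter.unusedSectionVars false

namespace Vale.Agent.P089G44

open Matrix Filter Topology Vale.Agent.P089 Vale.Agent.P089.Asm Vale.Agent.P089.Op Vale.Agent.P212

variable {G : Type} [Group G]

theorem norm_ch_le (k : ℕ) (x : UU G) : ‖ch k x‖ ≤ ‖x‖ := norm_ent_le x.1 _ _

theorem ch_sub (k : ℕ) (x y : UU G) : ch k (x - y) = ch k x - ch k y := ent_sub _ _ _ _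

theorem ch_cauchy (x : UU G) : CauchySeq fun k => ch k x := by
  refine Metric.cauchySeq_iff'.2 fun ε hε => ?_
  obtain ⟨k, y, hy, h⟩ := Sk_dense x (ε / 2) (half_pos hε)
  refine ⟨k, fun l hl => ?_⟩
  have h1 : ch l x - ch k x = ch l (x - y) - ch k (x - y) := by
    rw [ch_sub, ch_sub, ch_mono hl hy]
    ring
  rw [dist_eq_norm, h1]
  have := norm_sub_le (ch l (x - y)) (ch k (x - y))
  linarith [norm_ch_le l (x - y), norm_ch_le k (x - y)]

/-- The scalar part. -/
noncomputable def chF (x : UU G) : ℂ := limUnder atTop fun k => ch k x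

theorem tendsto_chF (x : UU G) : Tendsto (fun k => ch k x) atTop (𝓝 (chF x)) :=
  (ch_cauchy x).tendsto_limUnder

theorem chF_eq {k : ℕ} {x : UU G} (hx : x ∈ Sk G k) : chF x = ch k x :=
  tendsto_nhds_unique (tendsto_chF x) (tendsto_atTop_of_eventually_const fun _ hl => ch_mono hl hx)

theorem chF_add (x y : UU G) : chF (x + y) = chF x + chF y :=
  tendsto_nhds_unique (tendsto_chF _)
    (by simpa only [ch_add] using (tendsto_chF x).add (tendsto_chF y))

theorem chF_sub (x y : UU G) : chF (x - y) = chF x - chF y :=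
  tendsto_nhds_unique (tendsto_chF _)
    (by simpa only [ch_sub] using (tendsto_chF x).sub (tendsto_chF y))

theorem norm_chF_le (x : UU G) : ‖chF x‖ ≤ ‖x‖ :=
  le_of_tendsto' (tendsto_chF x).norm fun k => norm_ch_le k x

theorem continuous_chF : Continuous (chF : UU G → ℂ) := by
  refine LipschitzWith.continuous (K := 1) (LipschitzWith.of_dist_le_mul fun x y => ?_)
  rw [dist_eq_norm, dist_eq_norm, NNReal.coe_one, one_mul, ← chF_sub]
  exact norm_chF_le _

theorem dense_Sk : Dense {x : UU G | ∃ k, x ∈ Sk G k} := fun x =>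
  Metric.mem_closure_iff.2 fun ε hε => by
    obtain ⟨k, y, hy, h⟩ := Sk_dense x ε hε
    exact ⟨y, ⟨k, hy⟩, by rwa [dist_eq_norm]⟩

theorem chF_mul_Sk {a b : UU G} (ha : ∃ k, a ∈ Sk G k) (hb : ∃ k, b ∈ Sk G k) :
    chF (a * b) = chF a * chF b := by
  obtain ⟨k, hk⟩ := ha
  obtain ⟨l, hl⟩ := hb
  have ha : a ∈ Sk G (max k l) := Sk_mono (le_max_left k l) hk
  have hb : b ∈ Sk G (max k l) := Sk_mono (le_max_right k l) hl
  rw [chF_eq ha, chF_eq hb, chF_eq ((Sk G _).mul_mem ha hb), ch_mul ha hb]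

theorem chF_mul (x y : UU G) : chF (x * y) = chF x * chF y := by
  have h1 : ∀ a : UU G, (∃ k, a ∈ Sk G k) → ∀ b, chF (a * b) = chF a * chF b := fun a ha b =>
    (dense_Sk (G := G)).induction (P := fun b => chF (a * b) = chF a * chF b)
      (fun b hb => chF_mul_Sk ha hb)
      (isClosed_eq (continuous_chF.comp (continuous_const_mul a))
        (continuous_const.mul continuous_chF)) b
  exact (dense_Sk (G := G)).induction (P := fun a => chF (a * y) = chF a * chF y)
    (fun a ha => h1 a ha y)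
    (isClosed_eq (continuous_chF.comp (continuous_mul_const y))
      (continuous_chF.mul continuous_const)) x

theorem chF_alg (c : ℂ) : chF (algebraMap ℂ (UU G) c) = c := by
  rw [chF_eq ((Sk G 0).algebraMap_mem c), ch_alg]

/-- The character of the unitization. -/
noncomputable def chi (G : Type) [Group G] : UU G →+* ℂ where
  toFun := chF
  map_one' := by simpa only [map_one] using chF_alg (G := G) 1
  map_mul' := chF_mul
  map_zero' := by simpa only [map_zero] using chF_alg (G := G) 0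
  map_add' := chF_add

theorem chi_eq {k : ℕ} {x : UU G} (hx : x ∈ Sk G k) : chi G x = ch k x := chF_eq hx

theorem chi_alg (c : ℂ) : chi G (algebraMap ℂ (UU G) c) = c := chF_alg c

theorem norm_chi_le (x : UU G) : ‖chi G x‖ ≤ ‖x‖ := norm_chF_le x

theorem chi_cor (T : CrG G) : chi G (cor G T) = 0 := by
  rw [chi_eq (cor_mem T), ch_cor le_rfl]

theorem chi_roeB {x : UU G} (hx : RoeB x.1) : chi G x = 0 := by
  refine norm_le_zero_iff.1 (le_of_forall_pos_le_add fun ε hε => ?_)
  obtain ⟨k, hk⟩ := hx.exists_cut hε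
  let y : UU G := ⟨pk k * x.1 * pk k, roeU_le_UU (hx.cut k).mem_roeU⟩
  have h0 : (1 - pk k) * y.1 = (0 : ℂ) • (1 - pk k) := by
    change (1 - pk k) * (pk k * x.1 * pk k) = _
    rw [← mul_assoc, ← mul_assoc, sub_mul, one_mul, pk_mul_pk le_rfl, sub_self, zero_mul, zero_mul,
      zero_smul]
  have hy : y ∈ Sk G k := by
    have h := cut_mem_SkA k 0 x.1
    rw [zero_smul, zero_add] at h
    exact h
  have h1 : chi G x = chi G (x - y) := by rw [map_sub, chi_eq hy, ch_eq le_rfl h0, sub_zero]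
  rw [h1, zero_add]
  exact (norm_chi_le _).trans (hk k le_rfl)

theorem chi_closure {x : UU G} (hx : x.1 ∈ closure {S | IsRoe S}) : chi G x = 0 := by
  refine norm_le_zero_iff.1 (le_of_forall_pos_le_add fun ε hε => ?_)
  obtain ⟨S, hS, h⟩ := Metric.mem_closure_iff.1 hx ε hε
  let y : UU G := ⟨S, roeU_le_UU (RoeB.of_isRoe hS).mem_roeU⟩
  have h1 : chi G x = chi G (x - y) := by
    rw [map_sub, chi_roeB (x := y) (RoeB.of_isRoe hS), sub_zero]
  rw [h1, zero_add]
  rw [dist_eq_norm] at h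
  exact (norm_chi_le _).trans h.le

/-- The scalar part as an endomorphism. -/
noncomputable def sg (G : Type) [Group G] : UU G →+* UU G := (algebraMap ℂ (UU G)).comp (chi G)

theorem sg_apply (x : UU G) : sg G x = algebraMap ℂ (UU G) (chi G x) := rfl

theorem sg_mem (k : ℕ) (x : UU G) : sg G x ∈ Sk G k := (Sk G k).algebraMap_mem _

theorem chi_sg (x : UU G) : chi G (sg G x) = chi G x := chi_alg _

variable {ι κ ι' κ' : Type} [Fintype ι] [Fintype κ] [Fintype ι'] [Fintype κ']

theorem sg_in (k : ℕ) (x : Matrix ι κ (UU G)) : In k (x.map (sg G)) := fun _ _ => sg_mem k _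

theorem cm_zero (i j : ℕ) : cm i j (0 : UU G) = 0 := Subtype.ext (cmp_zero i j)

theorem fl_zero (k : ℕ) : fl k (0 : Matrix ι κ (UU G)) = 0 := by
  ext1 a b
  exact cm_zero _ _

theorem fl_blocks (k : ℕ) (x : Matrix ι ι (UU G)) (y : Matrix κ κ (UU G)) :
    fl k (fromBlocks x 0 0 y) = (fromBlocks (fl k x) 0 0 (fl k y)).submatrix
      (Equiv.sumProdDistrib ι κ (Fin k)) (Equiv.sumProdDistrib ι κ (Fin k)) := by
  ext1 ⟨a, i⟩ ⟨b, j⟩
  rcases a with a | a <;> rcases b with b | b
  · rfl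
  · exact cm_zero _ _
  · exact cm_zero _ _
  · rfl

/-- The scalar block. -/
noncomputable def dg (d : ℕ) (x : Matrix ι κ (UU G)) : Matrix (ι × Fin d) (κ × Fin d) (CrG G) :=
  Matrix.of fun a b => if a.2 = b.2 then algebraMap ℂ (CrG G) (chi G (x a.1 b.1)) else 0

theorem dg_sg (d : ℕ) (x : Matrix ι κ (UU G)) : dg d (x.map (sg G)) = dg d x := by
  ext1 a b
  simp only [dg, of_apply, map_apply, chi_sg]

/-- The splitting of the index set. -/
def spl (ι : Type) (k d : ℕ) : (ι × Fin k) ⊕ (ι × Fin d) ≃ ι × Fin (k + d) :=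
  (Equiv.prodSumDistrib ι (Fin k) (Fin d)).symm.trans
    (Equiv.prodCongr (Equiv.refl ι) finSumFinEquiv)

theorem cm_left {k l : ℕ} (h : k ≤ l) (m : ℕ) {x : UU G} (hx : x ∈ Sk G k) :
    cm l m x = if l = m then algebraMap ℂ (CrG G) (chi G x) else 0 := by
  apply Subtype.ext
  change Asm.cmp l m x.1 = _
  rw [cmp_of_left h m (ch_spec hx).1, chi_eq hx]
  split_ifs
  · exact (Algebra.algebraMap_eq_smul_one _).symm
  · rfl

theorem cm_right {k l : ℕ} (h : k ≤ l) (m : ℕ) {x : UU G} (hx : x ∈ Sk G k) :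
    cm m l x = if m = l then algebraMap ℂ (CrG G) (chi G x) else 0 := by
  apply Subtype.ext
  change Asm.cmp m l x.1 = _
  rw [cmp_of_right h m (ch_spec hx).2, chi_eq hx]
  split_ifs
  · exact (Algebra.algebraMap_eq_smul_one _).symm
  · rfl

theorem fl_step {k : ℕ} (d : ℕ) {x : Matrix ι ι (UU G)} (hx : In k x) :
    (fl (k + d) x).submatrix (spl ι k d) (spl ι k d) = fromBlocks (fl k x) 0 0 (dg d x) := by
  ext1 a b
  rcases a with ⟨a, i⟩ | ⟨a, i⟩ <;> rcases b with ⟨b, j⟩ | ⟨b, j⟩
  · rfl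
  · change cm i (k + j) (x a b) = 0
    rw [cm_right (Nat.le_add_right k j) _ (hx a b), if_neg]
    omega
  · change cm (k + i) j (x a b) = 0
    rw [cm_left (Nat.le_add_right k i) _ (hx a b), if_neg]
    omega
  · change cm (k + i) (k + j) (x a b) = if i = j then _ else 0
    rw [cm_left (Nat.le_add_right k i) _ (hx a b)]
    simp only [add_right_inj, Fin.val_inj]

theorem fl_cor (q : Matrix ι κ (CrG G)) : fl 1 (q.map (cor G)) = q.submatrix Prod.fst Prod.fst := by
  ext1 ⟨a, i⟩ ⟨b, j⟩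
  obtain rfl := Subsingleton.elim i 0
  obtain rfl := Subsingleton.elim j 0
  exact Subtype.ext (cmp_Ei_self 0 0 _)

/-- The projection `pk k` as an element of `UU G`. -/
noncomputable def pu (G : Type) [Group G] (k : ℕ) : UU G := ∑ j : Fin k, eu G j j

theorem pu_val (k : ℕ) : (pu G k).1 = pk k := by
  rw [pu, AddSubmonoidClass.coe_finsetSum, pk_eq]
  rfl

theorem pu_idem (k : ℕ) : pu G k * pu G k = pu G k := by
  apply Subtype.ext
  change (pu G k).1 * (pu G k).1 = _
  rw [pu_val, pk_mul_pk le_rfl]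

theorem pu_comm {k : ℕ} {x : UU G} (hx : x ∈ Sk G k) : pu G k * x = x * pu G k := by
  apply Subtype.ext
  change (pu G k).1 * x.1 = x.1 * (pu G k).1
  rw [pu_val]
  exact SkA_comm hx

theorem compl_mul {k : ℕ} {x : UU G} (hx : x ∈ Sk G k) :
    x * (1 - pu G k) = sg G x * (1 - pu G k) := by
  apply Subtype.ext
  change x.1 * (1 - (pu G k).1) =
    algebraMap ℂ (L2 (G × ℕ) →L[ℂ] L2 (G × ℕ)) (chi G x) * (1 - (pu G k).1)
  rw [pu_val, (ch_spec hx).2, chi_eq hx, Algebra.algebraMap_eq_smul_one, smul_mul_assoc, one_mul]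

/-- The cut matrix is equivalent to the corner of the flattened matrix. -/
theorem mvn_cut {k : ℕ} {e : Matrix ι ι (UU G)} (he : e * e = e) (hk : In k e) :
    MvN (e.map (· * pu G k)) ((fl k e).map (cor G)) := by
  classical
  let X : Matrix ι (ι × Fin k) (UU G) := Matrix.of fun a b => e a b.1 * eu G b.2 0
  let Y : Matrix (ι × Fin k) ι (UU G) := Matrix.of fun b a => eu G 0 b.2 * e b.1 a
  refine ⟨X, Y, ?_, ?_⟩
  · ext1 a b
    rw [mul_apply, Fintype.sum_prod_type, map_apply]
    conv_rhs => rw [← he, mul_apply, Finset.sum_mul]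
    refine Finset.sum_congr rfl fun c _ => ?_
    rw [mul_assoc, ← pu_comm (hk c b), pu, Finset.sum_mul, Finset.mul_sum]
    refine Finset.sum_congr rfl fun i _ => ?_
    change e a c * eu G i 0 * (eu G 0 i * e c b) = _
    rw [mul_assoc, ← mul_assoc (eu G i 0), eu_mul, if_pos rfl]
  · ext1 a b
    rw [mul_apply, map_apply]
    change _ = cor G (cm a.2 b.2 (e a.1 b.1))
    rw [cor_cm]
    conv_rhs => rw [← he, mul_apply, Finset.mul_sum, Finset.sum_mul]
    refine Finset.sum_congr rfl fun c _ => ?_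
    change eu G 0 a.2 * e a.1 c * (e c b.1 * eu G b.2 0) = _
    simp only [mul_assoc]

end Vale.Agent.P089G44
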