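import Vale.Agent.P089Z.Main

/-! P089: matrices over the corner algebras `Sk G k`, flattened to matrices over `C*_r(G)`. -/

set_option linter.unusedSectionVars false

namespace Vale.Agent.P089G44

open Matrix Vale.Agent.P089 Vale.Agent.P089.Asm Vale.Agent.P089.Op Vale.Agent.P212

section Cmp

variable {P : Type}

theorem cmp_one (i j : ℕ) :
    cmp i j (1 : L2 (P × ℕ) →L[ℂ] L2 (P × ℕ)) = if i = j then 1 else 0 := by
  refine ent_ext fun g h => ?_
  rw [ent_cmp]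
  by_cases hij : i = j
  · subst hij
    rw [if_pos rfl]
    by_cases hg : g = h
    · subst hg
      rw [ent_one_self, ent_one_self]
    · rw [ent_one_ne hg, ent_one_ne fun e => hg (Prod.mk.inj e).1]
  · rw [if_neg hij, ent_zero, ent_one_ne fun e => hij (Prod.mk.inj e).2]

theorem cmp_add (i j : ℕ) (S T : L2 (P × ℕ) →L[ℂ] L2 (P × ℕ)) :
    cmp i j (S + T) = cmp i j S + cmp i j T := map_add (cmpL i j) S T

theorem cmp_zero (i j : ℕ) : cmp i j (0 : L2 (P × ℕ) →L[ℂ] L2 (P × ℕ)) = 0 := map_zero (cmpL i j)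

theorem cmp_smul (i j : ℕ) (c : ℂ) (T : L2 (P × ℕ) →L[ℂ] L2 (P × ℕ)) :
    cmp i j (c • T) = c • cmp i j T := map_smul (cmpL i j) c T

theorem cmp_sum {ι : Type} (s : Finset ι) (i j : ℕ) (T : ι → L2 (P × ℕ) →L[ℂ] L2 (P × ℕ)) :
    cmp i j (∑ a ∈ s, T a) = ∑ a ∈ s, cmp i j (T a) := map_sum (cmpL i j) T s

theorem cmp_left {k l : ℕ} (h : k ≤ l) (m : ℕ) (x : L2 (P × ℕ) →L[ℂ] L2 (P × ℕ)) :
    cmp l m ((1 - pk k) * x) = cmp l m x := by
  refine ent_ext fun g g' => ?_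
  rw [ent_cmp, ent_cmp, one_sub_pk, ent_proj_mul_mem]
  simpa using h

theorem cmp_right {k l : ℕ} (h : k ≤ l) (m : ℕ) (x : L2 (P × ℕ) →L[ℂ] L2 (P × ℕ)) :
    cmp m l (x * (1 - pk k)) = cmp m l x := by
  refine ent_ext fun g g' => ?_
  rw [ent_cmp, ent_cmp, one_sub_pk, ent_mul_proj_mem]
  simpa using h

theorem cmp_of_left {k l : ℕ} (h : k ≤ l) (m : ℕ) {x : L2 (P × ℕ) →L[ℂ] L2 (P × ℕ)} {c : ℂ}
    (hx : (1 - pk k) * x = c • (1 - pk k)) : cmp l m x = if l = m then c • 1 else 0 := by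
  rw [← cmp_left h, hx, cmp_smul, ← mul_one (1 - pk k : L2 (P × ℕ) →L[ℂ] L2 (P × ℕ)), cmp_left h,
    cmp_one]
  split_ifs
  · rfl
  · exact smul_zero c

theorem cmp_of_right {k l : ℕ} (h : k ≤ l) (m : ℕ) {x : L2 (P × ℕ) →L[ℂ] L2 (P × ℕ)} {c : ℂ}
    (hx : x * (1 - pk k) = c • (1 - pk k)) : cmp m l x = if m = l then c • 1 else 0 := by
  rw [← cmp_right h, hx, cmp_smul, ← one_mul (1 - pk k : L2 (P × ℕ) →L[ℂ] L2 (P × ℕ)),
    cmp_right h, cmp_one]
  split_ifs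
  · rfl
  · exact smul_zero c

theorem adj_Vi_Vi (i j : ℕ) :
    ContinuousLinearMap.adjoint (Vi (P := P) i) ∘L Vi j = if i = j then 1 else 0 := cmp_one i j

theorem Ei_mul (i j k l : ℕ) (S T : L2 P →L[ℂ] L2 P) :
    Ei i j S * Ei k l T = if j = k then Ei i l (S * T) else 0 := by
  have h : Ei i j S * Ei k l T = Vi i ∘L S ∘L (ContinuousLinearMap.adjoint (Vi j) ∘L Vi k) ∘L T ∘L
      ContinuousLinearMap.adjoint (Vi l) := rfl
  rw [h, adj_Vi_Vi]
  split_ifs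
  · rfl
  · rw [ContinuousLinearMap.zero_comp, ContinuousLinearMap.comp_zero, ContinuousLinearMap.comp_zero]

theorem Ei_cmp (i j k l : ℕ) (x : L2 (P × ℕ) →L[ℂ] L2 (P × ℕ)) :
    Ei i j (cmp k l x) = Ei i k 1 * x * Ei l j 1 := rfl

theorem pk_eq (k : ℕ) : pk (P := P) k = ∑ j : Fin k, Ei j j 1 := by
  rw [pk_eq_sum, Finset.sum_range]
  rfl

end Cmp

variable {G : Type} [Group G]

/-- The rank one operator `e_ij`. -/
noncomputable def rk (i j : ℕ) : L2 ℕ →L[ℂ] L2 ℕ :=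
  (lp.singleContinuousLinearMap ℂ (fun _ : ℕ => ℂ) 2 i) ∘L (lp.evalCLM ℂ (fun _ : ℕ => ℂ) 2 j)

theorem rk_compact (i j : ℕ) : IsCompactOperator (rk i j) :=
  (isCompactOperator_of_locallyCompactSpace_dom
    (lp.evalCLM ℂ (fun _ : ℕ => ℂ) 2 j : L2 ℕ →L[ℂ] ℂ)).clm_comp
    (lp.singleContinuousLinearMap ℂ (fun _ : ℕ => ℂ) 2 i)

theorem ent_rk (i j m n : ℕ) : ent (rk i j) m n = if m = i ∧ n = j then 1 else 0 := by
  rw [entx_eq]
  change (lp.single 2 i ((lp.single 2 n (1 : ℂ) : L2 ℕ) j) : L2 ℕ) m = _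
  rw [lp.single_apply, lp.single_apply, Pi.single_apply, Pi.single_apply]
  by_cases h1 : m = i
  · by_cases h2 : n = j
    · rw [if_pos h1, if_pos h2.symm, if_pos ⟨h1, h2⟩]
    · rw [if_pos h1, if_neg (Ne.symm h2), if_neg fun h => h2 h.2]
  · rw [if_neg h1, if_neg fun h => h1 h.1]

theorem roeB_Ei_one (i j : ℕ) : RoeB (Ei i j (1 : L2 G →L[ℂ] L2 G)) := by
  classical
  have hb : ∀ g h : G, bl (Ei i j (1 : L2 G →L[ℂ] L2 G)) g h = if g = h then rk i j else 0 := by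
    intro g h
    refine entx_ext fun m n => ?_
    rw [ent_bl, ent_Ei]
    by_cases hg : g = h
    · subst hg
      rw [ent_one_self, if_pos rfl, ent_rk]
    · rw [if_neg hg, ent_one_ne hg, ent_zero, ite_self]
  refine ⟨fun g h s => ?_, ⟨{1}, fun g h hgh => ?_⟩, fun g h => ?_⟩
  · rw [hb, hb g h]
    simp only [mul_left_inj]
  · rw [hb, if_neg]
    rintro rfl
    exact hgh (by simp)
  · rw [hb]
    split_ifs
    · exact rk_compact i j
    · exact isCompactOperator_zero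

/-- The matrix unit `1 ⊗ e_ij`. -/
noncomputable def eu (G : Type) [Group G] (i j : ℕ) : UU G :=
  ⟨Ei i j 1, roeU_le_UU (roeB_Ei_one i j).mem_roeU⟩

theorem eu_mul (i j k l : ℕ) : eu G i j * eu G k l = if j = k then eu G i l else 0 := by
  apply Subtype.ext
  change Ei i j 1 * Ei k l 1 = _
  rw [Ei_mul, mul_one]
  split_ifs <;> rfl

/-- The corner embedding `T ↦ T ⊗ e₀₀`. -/
noncomputable def cor (G : Type) [Group G] : CrG G →ₙ+* UU G where
  toFun T := ⟨Ei 0 0 T.1, Ei_mem_UU (mem_CrG.1 T.2)⟩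
  map_mul' S T := Subtype.ext (Ei_mul_Ei S.1 T.1).symm
  map_zero' := Subtype.ext (map_zero (EiL (G := G)))
  map_add' S T := Subtype.ext (map_add (EiL (G := G)) S.1 T.1)

theorem cor_val (T : CrG G) : (cor G T).1 = Ei 0 0 T.1 := rfl

theorem cor_mem (T : CrG G) : cor G T ∈ Sk G 1 := Ei_mem_SkA T.1

/-- The component of an element of `UU G`. -/
noncomputable def cm (i j : ℕ) (x : UU G) : CrG G := ⟨cmp i j x.1, mem_CrG.2 (UU_cmp_mem x.2 i j)⟩

theorem cor_cm (i j : ℕ) (x : UU G) : cor G (cm i j x) = eu G 0 i * x * eu G j 0 :=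
  Subtype.ext (Ei_cmp 0 0 i j x.1)

/-- The scalar part, read off at the place `k`. -/
noncomputable def ch (k : ℕ) (x : UU G) : ℂ := ent x.1 (1, k) (1, k)

theorem ch_spec {k : ℕ} {x : UU G} (hx : x ∈ Sk G k) :
    (1 - pk k) * x.1 = ch k x • (1 - pk k) ∧ x.1 * (1 - pk k) = ch k x • (1 - pk k) :=
  (mem_SkA_iff (1 : G)).1 hx

theorem ch_eq {k l : ℕ} (h : k ≤ l) {x : UU G} {c : ℂ} (hx : (1 - pk k) * x.1 = c • (1 - pk k)) :
    ch l x = c := by
  rw [ch, ← ent_cmp, cmp_of_left h l hx, if_pos rfl, ent_smul, ent_one_self, mul_one]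

theorem ch_mono {k l : ℕ} (h : k ≤ l) {x : UU G} (hx : x ∈ Sk G k) : ch l x = ch k x :=
  ch_eq h (ch_spec hx).1

theorem ch_mul {k : ℕ} {x y : UU G} (hx : x ∈ Sk G k) (hy : y ∈ Sk G k) :
    ch k (x * y) = ch k x * ch k y := by
  refine ch_eq le_rfl ?_
  change (1 - pk k) * (x.1 * y.1) = _
  rw [← mul_assoc, (ch_spec hx).1, smul_mul_assoc, (ch_spec hy).1, smul_smul]

theorem ch_add (k : ℕ) (x y : UU G) : ch k (x + y) = ch k x + ch k y := ent_add _ _ _ _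

theorem ch_zero (k : ℕ) : ch k (0 : UU G) = 0 := ent_zero _ _

theorem ch_alg (k : ℕ) (c : ℂ) : ch k (algebraMap ℂ (UU G) c) = c := by
  refine ch_eq le_rfl ?_
  change (1 - pk k) * algebraMap ℂ (L2 (G × ℕ) →L[ℂ] L2 (G × ℕ)) c = _
  rw [Algebra.algebraMap_eq_smul_one, mul_smul_comm, mul_one]

theorem ch_cor {k : ℕ} (h : 1 ≤ k) (T : CrG G) : ch k (cor G T) = 0 := by
  rw [ch, cor_val, ent_Ei, if_neg]
  omega

/-- The scalar part as an additive map. -/
noncomputable def chA (k : ℕ) : UU G →+ ℂ := ⟨⟨ch k, ch_zero k⟩, ch_add k⟩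

variable {ι κ μ : Type} [Fintype ι] [Fintype κ] [Fintype μ]

/-- All the entries are in `Sk G k`. -/
def In (k : ℕ) (x : Matrix ι κ (UU G)) : Prop := ∀ a b, x a b ∈ Sk G k

theorem In.mono {k l : ℕ} (h : k ≤ l) {x : Matrix ι κ (UU G)} (hx : In k x) : In l x :=
  fun a b => Sk_mono h (hx a b)

theorem map_ch_mul {k : ℕ} {x : Matrix ι κ (UU G)} {y : Matrix κ μ (UU G)} (hx : In k x)
    (hy : In k y) : (x * y).map (ch k) = x.map (ch k) * y.map (ch k) := by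
  ext a b
  rw [map_apply, mul_apply, mul_apply]
  refine (map_sum (chA k) _ _).trans (Finset.sum_congr rfl fun c _ => ?_)
  exact ch_mul (hx a c) (hy c b)

/-- The scalar part of a matrix, as a matrix over `UU G`. -/
noncomputable def sc (k : ℕ) (x : Matrix ι κ (UU G)) : Matrix ι κ (UU G) :=
  (x.map (ch k)).map (algebraMap ℂ (UU G))

theorem sc_in (k l : ℕ) (x : Matrix ι κ (UU G)) : In l (sc k x) :=
  fun _ _ => (Sk G l).algebraMap_mem _

theorem sc_mul {k : ℕ} {x : Matrix ι κ (UU G)} {y : Matrix κ μ (UU G)} (hx : In k x)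
    (hy : In k y) : sc k (x * y) = sc k x * sc k y := by
  rw [sc, map_ch_mul hx hy, Matrix.map_mul]
  rfl

theorem sc_mono {k l : ℕ} (h : k ≤ l) {x : Matrix ι κ (UU G)} (hx : In k x) : sc l x = sc k x := by
  ext1 a b
  exact congrArg (algebraMap ℂ (UU G)) (ch_mono h (hx a b))

theorem ch_sc (k l : ℕ) (x : Matrix ι κ (UU G)) (a : ι) (b : κ) :
    ch l (sc k x a b) = ch k (x a b) := ch_alg _ _

/-- The flattened matrix of components. -/
noncomputable def fl (k : ℕ) (x : Matrix ι κ (UU G)) : Matrix (ι × Fin k) (κ × Fin k) (CrG G) :=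
  Matrix.of fun a b => cm a.2 b.2 (x a.1 b.1)

theorem fl_mul {k : ℕ} {x : Matrix ι κ (UU G)} (y : Matrix κ μ (UU G)) (hx : In k x) :
    fl k (x * y) = fl k x * fl k y := by
  ext1 a b
  apply Subtype.ext
  rw [mul_apply, Fintype.sum_prod_type, AddSubmonoidClass.coe_finsetSum]
  change cmp a.2 b.2 ((x * y) a.1 b.1).1 = _
  rw [mul_apply, AddSubmonoidClass.coe_finsetSum, cmp_sum]
  refine Finset.sum_congr rfl fun c _ => ?_
  rw [AddSubmonoidClass.coe_finsetSum]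
  change cmp a.2 b.2 ((x a.1 c).1 * (y c b.1).1) = _
  have h : pk k * (x a.1 c).1 = (x a.1 c).1 * pk k := SkA_comm (hx a.1 c)
  rw [cmp_mul h a.2.2, Finset.sum_range]
  rfl

end Vale.Agent.P089G44
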