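import Vale.Agent.P089G44.Chi
import Vale.Agent.P089GS.Cont
import Vale.Agent.P089GM.Kit

/-! P089: stability of `K_0` of the reduced group C*-algebra. -/

set_option linter.unusedSectionVars false

namespace Vale.Agent.P089G44

open Matrix Vale.Agent.P089 Vale.Agent.P089.Asm Vale.Agent.P089.Op Vale.Agent.P212
open Vale.Agent.P089G Vale.Agent.P089GS

variable {G : Type} [Group G] {ι κ : Type} [Fintype ι] [Fintype κ]

theorem fl_idem {k : ℕ} {e : Matrix ι ι (UU G)} (he : e * e = e) (hk : In k e) :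
    fl k e * fl k e = fl k e := by rw [← fl_mul _ hk, he]

/-- The class of the flattened matrix. -/
noncomputable def fc (k : ℕ) (e : Matrix ι ι (UU G)) (he : e * e = e) (hk : In k e) :
    KZero (CrG G) := KZero.cls (fl k e) (fl_idem he hk)

theorem fc_mvn {k : ℕ} {e : Matrix ι ι (UU G)} {f : Matrix κ κ (UU G)} (he : e * e = e)
    (hf : f * f = f) (hk : In k e) (hk' : In k f) {x : Matrix ι κ (UU G)} {y : Matrix κ ι (UU G)}
    (hx : In k x) (hy : In k y) (h1 : x * y = e) (h2 : y * x = f) :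
    fc k e he hk = fc k f hf hk' :=
  KZero.cls_eq_of_mvn _ _ ⟨fl k x, fl k y, by rw [← fl_mul _ hx, h1], by rw [← fl_mul _ hy, h2]⟩

theorem fc_blocks {k : ℕ} {e : Matrix ι ι (UU G)} {f : Matrix κ κ (UU G)} (he : e * e = e)
    (hf : f * f = f) (hk : In k e) (hk' : In k f) {g : Matrix (ι ⊕ κ) (ι ⊕ κ) (UU G)}
    (hg : g * g = g) (hk'' : In k g) (h : g = fromBlocks e 0 0 f) :
    fc k g hg hk'' = fc k e he hk + fc k f hf hk' := by
  subst h
  rw [fc, fc, fc, ← KZero.cls_blocks, ← KZero.cls_submatrix _ (Equiv.sumProdDistrib ι κ (Fin k))]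
  exact KZero.cls_congr _ _ (fl_blocks k e f)

theorem dg_idem {k : ℕ} (d : ℕ) {e : Matrix ι ι (UU G)} (he : e * e = e) (hk : In k e) :
    dg d e * dg d e = dg d e := by
  have h := sub_idem (fl_idem he (hk.mono (Nat.le_add_right k d))) (spl ι k d)
  rw [fl_step d hk, fromBlocks_multiply, fromBlocks_inj] at h
  simpa only [Matrix.mul_zero, Matrix.zero_mul, zero_add] using h.2.2.2

theorem fc_step {k : ℕ} (d : ℕ) {e : Matrix ι ι (UU G)} (he : e * e = e) (hk : In k e)
    (hk' : In (k + d) e) :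
    fc (k + d) e he hk' = fc k e he hk + KZero.cls (dg d e) (dg_idem d he hk) := by
  rw [fc, fc, ← KZero.cls_blocks, ← KZero.cls_submatrix _ (spl ι k d)]
  exact KZero.cls_congr _ _ (fl_step d hk)

/-- The corner subrings. -/
noncomputable def SS (G : Type) [Group G] (k : ℕ) : Subring (UU G) := (Sk G k).toSubring

theorem SS_closed (k : ℕ) : IsClosed (SS G k : Set (UU G)) := isClosed_Sk k

theorem SS_mono : Monotone (SS G) := fun _ _ h _ hx => Sk_mono h hx

theorem SS_dense (x : UU G) (ε : ℝ) (hε : 0 < ε) : ∃ k, ∃ y ∈ SS G k, ‖x - y‖ < ε :=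
  Sk_dense x ε hε

theorem in_map {k : ℕ} (e : Matrix ι κ (SS G k)) : In k (e.map (SS G k).subtype) :=
  fun a b => (e a b).2

/-- The invariant at the level `k`. -/
noncomputable def tk (k : ℕ) (e : Matrix ι ι (UU G)) (he : e * e = e) (hk : In k e) :
    KZero (CrG G) :=
  fc k e he hk - fc k (e.map (sg G)) (idem_map _ he) (sg_in k e)

theorem tk_mono {k l : ℕ} (h : k ≤ l) {e : Matrix ι ι (UU G)} (he : e * e = e) (hk : In k e)
    (hl : In l e) : tk l e he hl = tk k e he hk := by
  obtain ⟨d, rfl⟩ := Nat.exists_eq_add_of_le h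
  rw [tk, tk, fc_step d he hk, fc_step d _ (sg_in k e),
    KZero.cls_congr _ (dg_idem d he hk) (dg_sg d e)]
  abel

theorem tk_mvn {k : ℕ} {e : Matrix ι ι (UU G)} {f : Matrix κ κ (UU G)} (he : e * e = e)
    (hf : f * f = f) (hk : In k e) (hk' : In k f) {x : Matrix ι κ (UU G)} {y : Matrix κ ι (UU G)}
    (hx : In k x) (hy : In k y) (h1 : x * y = e) (h2 : y * x = f) :
    tk k e he hk = tk k f hf hk' := by
  have h3 : x.map (sg G) * y.map (sg G) = e.map (sg G) := by rw [← Matrix.map_mul, h1]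
  have h4 : y.map (sg G) * x.map (sg G) = f.map (sg G) := by rw [← Matrix.map_mul, h2]
  rw [tk, tk, fc_mvn he hf hk hk' hx hy h1 h2, fc_mvn (idem_map _ he) (idem_map _ hf) (sg_in k e)
    (sg_in k f) (sg_in k x) (sg_in k y) h3 h4]

theorem tk_blocks {k : ℕ} {e : Matrix ι ι (UU G)} {f : Matrix κ κ (UU G)} (he : e * e = e)
    (hf : f * f = f) (hk : In k e) (hk' : In k f) {g : Matrix (ι ⊕ κ) (ι ⊕ κ) (UU G)}
    (hg : g * g = g) (hk'' : In k g) (h : g = fromBlocks e 0 0 f) :
    tk k g hg hk'' = tk k e he hk + tk k f hf hk' := by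
  have h1 : g.map (sg G) = fromBlocks (e.map (sg G)) 0 0 (f.map (sg G)) := by
    rw [h, map_sum_blocks]
  rw [tk, tk, tk, fc_blocks he hf hk hk' hg hk'' h, fc_blocks (idem_map _ he) (idem_map _ hf)
    (sg_in k e) (sg_in k f) (idem_map _ hg) (sg_in k g) h1]
  abel

theorem ext_pred {B Γ : Type} [NormedRing B] [CompleteSpace B] [AddCommGroup Γ]
    (S : ℕ → Subring B) (hcl : ∀ k, IsClosed (S k : Set B)) (hmono : Monotone S)
    (hd : ∀ x : B, ∀ ε > 0, ∃ k, ∃ y ∈ S k, ‖x - y‖ < ε)
    (t : ∀ (k : ℕ) {ι : Type} [Fintype ι] (e : Matrix ι ι B), e * e = e → (∀ a b, e a b ∈ S k) → Γ)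
    (h1 : ∀ (k : ℕ) {ι κ : Type} [Fintype ι] [Fintype κ] (e : Matrix ι ι B) (f : Matrix κ κ B)
      (he : e * e = e) (hf : f * f = f) (hk : ∀ a b, e a b ∈ S k) (hk' : ∀ a b, f a b ∈ S k)
      (x : Matrix ι κ B) (y : Matrix κ ι B), (∀ a b, x a b ∈ S k) → (∀ a b, y a b ∈ S k) →
      x * y = e → y * x = f → t k e he hk = t k f hf hk')
    (h2 : ∀ (k : ℕ) {ι κ : Type} [Fintype ι] [Fintype κ] (e : Matrix ι ι B) (f : Matrix κ κ B)
      (he : e * e = e) (hf : f * f = f) (hk : ∀ a b, e a b ∈ S k) (hk' : ∀ a b, f a b ∈ S k)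
      (g : Matrix (ι ⊕ κ) (ι ⊕ κ) B) (hg : g * g = g) (hk'' : ∀ a b, g a b ∈ S k),
      g = fromBlocks e 0 0 f → t k g hg hk'' = t k e he hk + t k f hf hk')
    (h3 : ∀ (k l : ℕ), k ≤ l → ∀ {ι : Type} [Fintype ι] (e : Matrix ι ι B) (he : e * e = e)
      (hk : ∀ a b, e a b ∈ S k) (hl : ∀ a b, e a b ∈ S l), t l e he hl = t k e he hk) :
    ∃ ψ : KZero B →+ Γ, ∀ (k : ℕ) {ι : Type} [Fintype ι] (e : Matrix ι ι B) (he : e * e = e)
      (hk : ∀ a b, e a b ∈ S k), ψ (KZero.cls e he) = t k e he hk := by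
  let I : ∀ k, Inv (S k) Γ := fun k =>
    { f := fun e he => t k (e.map (S k).subtype) (idem_map _ he) fun a b => (e a b).2
      mvn := fun e e' he he' ⟨x, y, hx, hy⟩ => h1 k _ _ _ _ _ _ (x.map (S k).subtype)
        (y.map (S k).subtype) (fun a b => (x a b).2) (fun a b => (y a b).2)
        (by rw [← Matrix.map_mul, hx]) (by rw [← Matrix.map_mul, hy])
      add := fun e e' he he' h => h2 k _ _ _ _ _ _ _ _ _ (map_sum_blocks _ e e') }
  obtain ⟨T, hT⟩ := ext_inv S hcl hmono hd I fun a b h μ _ e he =>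
    h3 a b h (e.map (S a).subtype) (idem_map _ he) (fun i j => (e i j).2)
      fun i j => hmono h (e i j).2
  refine ⟨KZero.lift T.f (fun e f he hf h => T.mvn e f he hf h) fun e f he hf => T.add e f he hf _,
    fun k ι _ e he hk => ?_⟩
  rw [KZero.lift_cls]
  have h4 : liftS (S k) e hk * liftS (S k) e hk = liftS (S k) e hk :=
    map_subtype_inj _ (by rw [Matrix.map_mul, liftS_map, he])
  exact hT k (liftS (S k) e hk) h4

/-- The retraction. -/
theorem exists_psi : ∃ ψ : KZero (UU G) →+ KZero (CrG G),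
    ∀ (k : ℕ) {ι : Type} [Fintype ι] (e : Matrix ι ι (UU G)) (he : e * e = e) (hk : In k e),
      ψ (KZero.cls e he) = tk k e he hk :=
  ext_pred (SS G) SS_closed SS_mono SS_dense (fun k _ _ e he hk => tk k e he hk)
    (fun _ _ _ _ _ _ _ he hf hk hk' _ _ hx hy h1 h2 => tk_mvn he hf hk hk' hx hy h1 h2)
    (fun _ _ _ _ _ _ _ he hf hk hk' _ hg hk'' h => tk_blocks he hf hk hk' hg hk'' h)
    fun _ _ h _ _ _ he hk hl => tk_mono h he hk hl

/-- The corner map on `K_0`. -/
noncomputable def corK (G : Type) [Group G] : KZero (CrG G) →+ KZero (UU G) := KZero.map (cor G)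

theorem corK_cls {q : Matrix ι ι (CrG G)} (hq : q * q = q) :
    corK G (KZero.cls q hq) = KZero.cls (q.map (cor G)) (map_idem _ hq) := KZero.map_cls _ hq

theorem tk_cor {q : Matrix ι ι (CrG G)} (hq : q * q = q) (hk : In 1 (q.map (cor G))) :
    tk 1 (q.map (cor G)) (map_idem _ hq) hk = KZero.cls q hq := by
  have h0 : (q.map (cor G)).map (sg G) = 0 := by
    ext1 a b
    change sg G (cor G (q a b)) = 0
    rw [sg_apply, chi_cor, map_zero]
  rw [tk, fc, fc, KZero.cls_eq_zero (e := fl 1 ((q.map (cor G)).map (sg G))) _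
    (by rw [h0, fl_zero]), sub_zero, ← KZero.cls_submatrix hq (Equiv.prodUnique ι (Fin 1))]
  exact KZero.cls_congr _ _ (fl_cor q)

/-- Stability: the corner map is injective. -/
theorem corK_inj : Function.Injective (corK G) := by
  obtain ⟨ψ, hψ⟩ := exists_psi (G := G)
  have h : ψ.comp (corK G) = AddMonoidHom.id _ := KZero.hom_ext fun n q hq => by
    have hk : In 1 (q.map (cor G)) := fun a b => cor_mem _
    rw [AddMonoidHom.comp_apply, corK_cls, hψ 1 _ _ hk, tk_cor hq]
    rfl
  exact Function.LeftInverse.injective (g := ψ) fun x => DFunLike.congr_fun h x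

theorem cut_mul {k : ℕ} {p q : UU G} (hp : ∀ x ∈ Sk G k, p * x = x * p) (x : Matrix ι ι (UU G))
    {y : Matrix ι ι (UU G)} (hy : In k y) :
    x.map (· * p) * y.map (· * q) = (x * y).map (· * (p * q)) := by
  ext1 a b
  rw [map_apply, mul_apply, mul_apply, Finset.sum_mul]
  refine Finset.sum_congr rfl fun c _ => ?_
  change x a c * p * (y c b * q) = _
  rw [mul_assoc, ← mul_assoc p, hp _ (hy c b)]
  simp only [mul_assoc]

theorem compl_comm {k : ℕ} (x : UU G) (hx : x ∈ Sk G k) :
    (1 - pu G k) * x = x * (1 - pu G k) := by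
  rw [sub_mul, mul_sub, one_mul, mul_one, pu_comm hx]

theorem compl_cut_idem {k : ℕ} {e : Matrix ι ι (UU G)} (he : e * e = e) (hk : In k e) :
    e.map (· * (1 - pu G k)) * e.map (· * (1 - pu G k)) = e.map (· * (1 - pu G k)) := by
  rw [cut_mul compl_comm _ hk, he, sub_mul, one_mul, mul_sub, mul_one, pu_idem, sub_self, sub_zero]

theorem cls_split {k : ℕ} {e : Matrix ι ι (UU G)} (he : e * e = e) (hk : In k e) :
    KZero.cls e he = corK G (fc k e he hk) +
      KZero.cls (e.map (· * (1 - pu G k))) (compl_cut_idem he hk) := by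
  have h1 : e.map (· * pu G k) * e.map (· * pu G k) = e.map (· * pu G k) := by
    rw [cut_mul (fun _ hx => pu_comm hx) _ hk, he, pu_idem]
  have h0 : e.map (· * (0 : UU G)) = 0 := by
    ext1 a b
    exact mul_zero _
  have h2 : e.map (· * pu G k) + e.map (· * (1 - pu G k)) = e := by
    ext1 a b
    change e a b * pu G k + e a b * (1 - pu G k) = _
    rw [← mul_add, add_sub_cancel, mul_one]
  rw [fc, corK_cls, ← KZero.cls_eq_of_mvn h1 _ (mvn_cut he hk),
    ← KZero.cls_add h1 (compl_cut_idem he hk)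
      (by rw [cut_mul (fun _ hx => pu_comm hx) _ hk, he, mul_sub, mul_one, pu_idem, sub_self, h0])
      (by rw [cut_mul compl_comm _ hk, he, sub_mul, one_mul, pu_idem, sub_self, h0])
      (by rw [h2, he])]
  exact KZero.cls_congr _ _ h2.symm

theorem cls_sub_sg {k : ℕ} {e : Matrix ι ι (UU G)} (he : e * e = e) (hk : In k e) :
    KZero.cls e he - KZero.cls (e.map (sg G)) (idem_map _ he) = corK G (tk k e he hk) := by
  have h : e.map (· * (1 - pu G k)) = (e.map (sg G)).map (· * (1 - pu G k)) := by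
    ext1 a b
    exact compl_mul (hk a b)
  rw [cls_split he hk, cls_split (idem_map _ he) (sg_in k e), tk, map_sub,
    KZero.cls_congr _ (compl_cut_idem (idem_map _ he) (sg_in k e)) h]
  abel

theorem exists_sub_sg {e : Matrix ι ι (UU G)} (he : e * e = e) :
    ∃ x, corK G x = KZero.cls e he - KZero.cls (e.map (sg G)) (idem_map _ he) := by
  obtain ⟨k, g, hg, h⟩ := onto (SS G) SS_closed SS_mono SS_dense e he
  refine ⟨tk k _ (idem_map _ hg) (in_map g), ?_⟩
  rw [← cls_sub_sg, KZero.cls_eq_of_mvn _ he h,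
    KZero.cls_eq_of_mvn _ (idem_map _ he) (mvn_map (sg G) h)]

/-- Stability: differences of idempotents with equivalent scalar parts are in the range. -/
theorem corK_range {e : Matrix ι ι (UU G)} {f : Matrix κ κ (UU G)} (he : e * e = e)
    (hf : f * f = f) (h : MvN (e.map (chi G)) (f.map (chi G))) :
    ∃ x, corK G x = KZero.cls e he - KZero.cls f hf := by
  obtain ⟨x, hx⟩ := exists_sub_sg he
  obtain ⟨y, hy⟩ := exists_sub_sg hf
  have h1 : KZero.cls (e.map (sg G)) (idem_map _ he) = KZero.cls (f.map (sg G)) (idem_map _ hf) :=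
    KZero.cls_eq_of_mvn _ _ (mvn_map (algebraMap ℂ (UU G)) h)
  refine ⟨x - y, ?_⟩
  rw [map_sub, hx, hy, h1]
  abel

/-- The same for idempotents whose difference is over the closure of the Roe operators. -/
theorem corK_range' {e f : Matrix ι ι (UU G)} (he : e * e = e) (hf : f * f = f)
    (h : ∀ a b, (e a b - f a b).1 ∈ closure {S | IsRoe S}) :
    ∃! x, corK G x = KZero.cls e he - KZero.cls f hf := by
  have h1 : e.map (chi G) = f.map (chi G) := by
    ext a b
    have h2 := chi_closure (h a b)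
    rwa [map_sub, sub_eq_zero] at h2
  obtain ⟨x, hx⟩ := corK_range he hf (h1 ▸ mvn_refl (idem_map (chi G) he))
  exact ⟨x, hx, fun y hy => corK_inj (hy.trans hx.symm)⟩

/-- The range of the corner map is the kernel of the map induced by the character. -/
theorem mem_range_iff (z : KZero (UU G)) :
    z ∈ (corK G).range ↔ KZero.map (chi G).toNonUnitalRingHom z = 0 := by
  constructor
  · rintro ⟨x, rfl⟩
    have h : (KZero.map (chi G).toNonUnitalRingHom).comp (corK G) = 0 :=
      KZero.hom_ext fun n q hq => by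
        rw [AddMonoidHom.comp_apply, corK_cls, KZero.map_cls]
        refine KZero.cls_eq_zero _ ?_
        ext a b
        exact chi_cor _
    exact DFunLike.congr_fun h x
  · intro h
    have h1 : z - KZero.map (algebraMap ℂ (UU G)).toNonUnitalRingHom
        (KZero.map (chi G).toNonUnitalRingHom z) ∈ (corK G).range := by
      refine KZero.mem_of ((corK G).range.comap (AddMonoidHom.id _ -
        (KZero.map (algebraMap ℂ (UU G)).toNonUnitalRingHom).comp
          (KZero.map (chi G).toNonUnitalRingHom))) (fun n e he => ?_) z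
      obtain ⟨x, hx⟩ := exists_sub_sg he
      refine ⟨x, hx.trans ?_⟩
      rw [AddMonoidHom.sub_apply, AddMonoidHom.comp_apply, KZero.map_cls, KZero.map_cls]
      rfl
    rwa [h, map_zero, sub_zero] at h1

end Vale.Agent.P089G44
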